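import Vale.Agent.P277Z.Int.Mat
import Vale.Agent.P299.H835.Yau
import Vale.Agent.P272.K.AMP.Main.Exp
import Vale.Agent.P272.K.INT.Gronwall

/-! P277: the Hodge index theorem with its equality case, in dimension at most three, from the
Calabi-Yau theorem. -/

open scoped Manifold ContDiff ComplexOrder Topology
open Complex Set Filter MeasureTheory

set_option linter.all false

noncomputable section

namespace Vale.Agent.P277Z.Int

open Vale.Agent.P272.K Vale.Agent.P272.K.AMP Vale.Agent.P272.K.AMP.Main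
open INT (intX IsClosedForm part)

variable {n : ℕ} {X : Type} [TopologicalSpace X] [ChartedSpace (Cm n) X]
  [IsManifold 𝓘(ℂ, Cm n) ω X] [T2Space X] [CompactSpace X]
  {w x : Chart n X → Cm n → Matrix (Fin n) (Fin n) ℂ}

/-- a real form -/
def Herm (x : Chart n X → Cm n → Matrix (Fin n) (Fin n) ℂ) : Prop :=
  ∀ e y, At e y → (x e (e y)).IsHermitian

/-- `x = i∂∂̄u` -/
def Exa (x : Chart n X → Cm n → Matrix (Fin n) (Fin n) ℂ) : Prop :=
  ∃ u : X → ℝ, SmoothFn (n := n) u ∧
    ∀ e y, At e y → x e (e y) = cHess (fun z => u (e.symm z)) (e y)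

/-- the volume polynomial `(w + t x)^n` -/
def Vol (w x : Chart n X → Cm n → Matrix (Fin n) (Fin n) ℂ) (t : ℝ) : ℝ :=
  intX fun e z => (w e z + (t : ℂ) • x e z).det.re

lemma IX_pos (hχ : IsHermitian w) {g : X → ℝ} (hg : Continuous g) (h0 : ∀ x, 0 ≤ g x)
    {x : X} (hx : 0 < g x) : 0 < IX w g := by
  have hD := isDensity_IX hχ hg
  set P := part n X with hP
  have h1 : ∃ i, 0 < P.ρ i x := by
    by_contra hcon
    push Not at hcon
    have := P.sum x
    have h2 : ∑ i, P.ρ i x ≤ 0 := Finset.sum_nonpos fun i _ => hcon i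
    linarith
  obtain ⟨i, hi⟩ := h1
  have hd : ∀ j, ∀ z ∈ (P.e j).target, 0 < (w (P.e j) z).det.re := fun j z hz => by
    have := hχ.det_re_pos (e := P.e j) (x := (P.e j).symm z) ⟨P.mem j, (P.e j).map_target hz⟩
    rwa [(P.e j).right_inv hz] at this
  have hDn : ∀ j, ∀ z ∈ (P.e j).target, 0 ≤ g ((P.e j).symm z) * (w (P.e j) z).det.re :=
    fun j z hz => mul_nonneg (h0 _) (hd j z hz).le
  unfold IX intX
  rw [← hP]
  refine Finset.sum_pos' (fun j _ => ?_) ⟨i, Finset.mem_univ i, ?_⟩
  · refine setIntegral_nonneg (P.e j).open_target.measurableSet fun z hz => ?_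
    exact mul_nonneg (P.nonneg j _) (hDn j z hz)
  · have hxs : x ∈ (P.e i).source := P.supp i (subset_tsupport _ (by
      simp only [Function.mem_support]; exact hi.ne'))
    rw [setIntegral_pos_iff_support_of_nonneg_ae]
    · have hopen : IsOpen ((P.e i).target ∩ (P.e i).symm ⁻¹' ({y | 0 < P.ρ i y} ∩ {y | 0 < g y})) :=
        (P.e i).isOpen_inter_preimage_symm ((isOpen_lt continuous_const (P.cont i)).inter
          (isOpen_lt continuous_const hg))
      refine (hopen.measure_pos volume ⟨P.e i x, ?_⟩).trans_le (measure_mono ?_)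
      · refine ⟨(P.e i).map_source hxs, ?_, ?_⟩
        · change 0 < P.ρ i ((P.e i).symm (P.e i x))
          rw [(P.e i).left_inv hxs]; exact hi
        · change 0 < g ((P.e i).symm (P.e i x))
          rw [(P.e i).left_inv hxs]; exact hx
      · rintro z ⟨hz1, hz2, hz3⟩
        refine ⟨?_, hz1⟩
        simp only [Function.mem_support]
        exact (mul_pos hz2 (mul_pos hz3 (hd i z hz1))).ne'
    · filter_upwards [self_mem_ae_restrict (P.e i).open_target.measurableSet] with z hz
      exact mul_nonneg (P.nonneg i _) (hDn i z hz)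
    · exact INT.integrableOn_part P hD i

/-- `w + t x` is positive for small `t` -/
lemma exists_small (hw : IsHermitian w) (hx : IsClosedForm x) (hH : Herm x) :
    ∃ δ : ℝ, 0 < δ ∧ ∀ t : ℝ, |t| < δ → ∀ e y, At e y →
      (w e (e y) + (t : ℂ) • x e (e y)).PosDef := by
  obtain ⟨C, hC, h1⟩ := exists_comparison' hw hx.smooth hx.form hH
  have hx' := hx.smul (-1)
  obtain ⟨C', hC', h2⟩ := exists_comparison' hw hx'.smooth hx'.form fun e y hy => by
    simpa using (hH e y hy).neg
  have key : ∀ {M N : Matrix (Fin n) (Fin n) ℂ} {c s : ℝ}, M.PosDef → 0 ≤ s → s * c < 1 →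
      ((c : ℂ) • M - N).PosSemidef → (M - (s : ℂ) • N).PosDef := by
    intro M N c s hM hs hsc h
    have e1 : M - (s : ℂ) • N = (1 - s * c : ℝ) • M + (s : ℂ) • ((c : ℂ) • M - N) := by
      ext i j
      simp only [Matrix.sub_apply, Matrix.add_apply, Matrix.smul_apply, smul_eq_mul,
        Complex.real_smul]
      push_cast; ring
    rw [e1]
    exact (hM.smul (by linarith)).add_posSemidef (posSemidef_ofReal_smul h hs)
  refine ⟨1 / (C + C'), by positivity, fun t ht e y hy => ?_⟩
  rw [lt_div_iff₀ (by positivity)] at ht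
  rcases le_total 0 t with h0 | h0
  · rw [abs_of_nonneg h0] at ht
    have := key (hw.posDef e y hy) h0 (by nlinarith) (h2 e y hy)
    simpa using this
  · rw [abs_of_nonpos h0] at ht
    have := key (s := -t) (hw.posDef e y hy) (by linarith) (by nlinarith) (h1 e y hy)
    simpa using this

lemma vol_zero : Vol w x 0 = intX fun e z => (w e z).det.re := by
  unfold Vol; simp

/-- the derivative of the volume polynomial at `0` -/
lemma vol_deriv (hw : IsKahler w) (hx : IsClosedForm x) :
    HasDerivAt (Vol w x) (IX w (trX w x)) 0 := by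
  have hwc := INT.IsKahler.isClosedForm hw
  have h := INT.hasDerivAt_intX (m := n)
    (D := fun t e z => (w e z + (t : ℂ) • x e z).det.re)
    (fun t => (hwc.add (hx.smul (t : ℂ))).isDensity)
    (fun e y _ => INT.isPolyN_det _ _) 0
  have h2 : (intX fun e z => deriv (fun s : ℝ => (w e z + (s : ℂ) • x e z).det.re) 0) =
      IX w (trX w x) := by
    rw [← IX_of_chart hw.toIsHermitian (F := trE w x)
      fun e y hy => (trX_eq hw.toIsHermitian hx.form hy).symm]
    refine INT.intX_congr fun e y hy => ?_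
    rw [(INT.hasDerivAt_det_line _ _ 0).deriv]
    obtain ⟨h1, h2⟩ := INT.posDef_det_re (hw.posDef e y hy)
    simp only [Complex.ofReal_zero, zero_smul, add_zero]
    rw [INT.sum_det_updateRow (isUnit_iff_ne_zero.2 fun h0 => by rw [h0] at h1; simp at h1),
      Complex.mul_re, h2, mul_zero, sub_zero]
    rfl
  rw [← h2]
  exact h

variable [ConnectedSpace X]

/-- if `x` is primitive, `w` has the largest volume among the Kähler forms `w + t x` -/
theorem vol_le (hw : IsKahler w) (hx : IsClosedForm x) (h0 : IX w (trX w x) = 0) {t : ℝ}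
    (ht : ∀ e y, At e y → (w e (e y) + (t : ℂ) • x e (e y)).PosDef) :
    Vol w x t ≤ Vol w x 0 ∧ (Vol w x t = Vol w x 0 → t ≠ 0 → Exa x) := by
  have hwH := hw.toIsHermitian
  have hwc := INT.IsKahler.isClosedForm hw
  set χ : Chart n X → Cm n → Matrix (Fin n) (Fin n) ℂ := fun e z => w e z + (t : ℂ) • x e z with hχ
  have hχc : IsClosedForm χ := hwc.add (hx.smul (t : ℂ))
  have hχK : IsKahler χ :=
    { smooth := hχc.smooth, posDef := ht, change := hχc.form
      closed := fun e y hy i j k => hχc.closed e y hy k i j }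
  have hχH := hχK.toIsHermitian
  obtain ⟨u, c, hu, hpos, heq⟩ := P299.H835.yau χ hχK (potX χ w) (smoothFn_pot hχH hwH)
  have hlog : ∀ e y, At e y →
      Real.log (addH χ u e (e y)).det.re - Real.log (w e (e y)).det.re = c := by
    intro e y hy
    have h1 := heq e y hy
    rw [pot_eq hχH hwH hy] at h1
    linarith
  have hV : 0 < intX fun e z => (w e z).det.re :=
    INT.intX_pos (INT.isDensity_det hwH.change hwH.smooth) fun e y hy => hwH.det_re_pos hy
  have h1 : Vol w x t = Real.exp c * intX fun e z => (w e z).det.re := by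
    have h2 := INT.intX_det_add_cHess hχc hu
    unfold Vol
    rw [← INT.intX_const_mul, ← h2]
    refine INT.intX_congr fun e y hy => ?_
    have h3 := hlog e y hy
    have h4 := (INT.posDef_det_re (hpos e y hy)).1
    have h5 := hwH.det_re_pos hy
    rw [← h3, Real.exp_sub, Real.exp_log h4, Real.exp_log h5]
    field_simp
    rfl
  set f : X → ℝ := fun y => t * trX w x y + lapX w u y with hf
  have htr : ∀ e y, At e y → ((w e (e y))⁻¹ * addH χ u e (e y)).trace.re - Fintype.card (Fin n) =
      f y := by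
    intro e y hy
    have hu' : IsUnit (w e (e y)).det := isUnit_iff_ne_zero.2 (hw.posDef e y hy).det_pos.ne'
    simp only [hf]
    rw [trX_eq hwH hx.form hy, lapX_eq hwH hu hy]
    unfold addH trE lapE hess
    simp only [hχ, Matrix.mul_add, Matrix.trace_add, Complex.add_re, green_tr_smul,
      Matrix.nonsing_inv_mul _ hu', Matrix.trace_one]
    simp
    ring
  have c1 := INT.SmoothFn.continuous (smoothFn_trX hwH hx.form hx.smooth)
  have c2 := INT.SmoothFn.continuous (smoothFn_lapX hwH hu)
  have cf : Continuous f := (continuous_const.mul c1).add c2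
  have hIf : IX w f = 0 := by
    simp only [hf]
    rw [IX_add hwH (f := fun y => t * trX w x y) (continuous_const.mul c1) c2, IX_const_mul, h0,
      IX_lapX hw hu]
    simp
  have hle : ∀ y, c ≤ f y := fun y => by
    have hy := at_chartAt (n := n) y
    rw [← htr _ y hy, ← hlog _ y hy]
    exact (logdet_le (hw.posDef _ y hy) (hpos _ y hy)).1
  have hc : c ≤ 0 := by
    have h2 := IX_mono hwH (f := fun _ => c * 1) continuous_const cf fun y => by
      rw [mul_one]; exact hle y
    rw [IX_const_mul, IX_one, hIf] at h2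
    by_contra hcon
    push Not at hcon
    have := mul_pos hcon hV
    linarith
  rw [h1, vol_zero]
  refine ⟨mul_le_of_le_one_left hV.le (Real.exp_le_one_iff.2 hc), fun h ht0 => ?_⟩
  have hc0 : c = 0 := by
    have h2 : Real.exp c = 1 := by
      have := mul_right_cancel₀ hV.ne' (h.trans (one_mul _).symm)
      exact this
    exact Real.exp_eq_one_iff c |>.1 h2
  have hf0 : ∀ y, f y = 0 := fun y => by
    by_contra hne
    have h2 : 0 < f y := lt_of_le_of_ne (hc0 ▸ hle y) (Ne.symm hne)
    have := IX_pos hwH cf (fun y => hc0 ▸ hle y) h2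
    linarith
  refine ⟨fun y => -t⁻¹ * u y, sm_const_mul _ hu, fun e y hy => ?_⟩
  have h2 := (logdet_le (hw.posDef e y hy) (hpos e y hy)).2 (by
    rw [htr e y hy, hlog e y hy, hc0, hf0])
  rw [C2.cHess_const_mul _ ((hu e y hy).of_le INT.two_le_inf)]
  have h3 : (t : ℂ) • x e (e y) = -cHess (fun z => u (e.symm z)) (e y) := by
    unfold addH at h2
    simp only [hχ] at h2
    rw [add_assoc, add_eq_left] at h2
    exact eq_neg_of_add_eq_zero_left h2
  have ht' : (t : ℂ) ≠ 0 := by exact_mod_cast ht0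
  have h4 : x e (e y) = (t : ℂ)⁻¹ • ((t : ℂ) • x e (e y)) := by
    rw [smul_smul, inv_mul_cancel₀ ht', one_smul]
  rw [h4, h3]
  push_cast
  simp

/-- **Hodge index theorem** in dimension at most three. `k * Vol w x t` is `∫ (w + t x)^n`; its
linear term vanishes. -/
theorem hi_poly (hw : IsKahler w) (hx : IsClosedForm x) (hH : Herm x) {k a0 a2 a3 : ℝ}
    (hk : 0 < k) (h : ∀ t, k * Vol w x t = a0 + a2 * t ^ 2 + a3 * t ^ 3) :
    a2 ≤ 0 ∧ (a2 = 0 → Exa x) := by
  have h0 : IX w (trX w x) = 0 := by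
    have d1 := (vol_deriv hw hx).const_mul k
    have d2 : HasDerivAt (fun t : ℝ => a0 + a2 * t ^ 2 + a3 * t ^ 3) 0 0 := by
      have := (((hasDerivAt_pow 2 (0 : ℝ)).const_mul a2).const_add a0).fun_add
        ((hasDerivAt_pow 3 (0 : ℝ)).const_mul a3)
      exact this.congr_deriv (by simp)
    rw [funext h] at d1
    exact (mul_eq_zero.1 (d1.unique d2)).resolve_left hk.ne'
  obtain ⟨δ, hδ, hs⟩ := exists_small hw.toIsHermitian hx hH
  have ht : 0 < δ / 2 := by positivity
  have s1 := vol_le hw hx h0 (hs (δ / 2) (by rw [abs_of_pos ht]; linarith))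
  have s2 := vol_le hw hx h0 (hs (-(δ / 2)) (by rw [abs_neg, abs_of_pos ht]; linarith))
  have e0 := h 0
  have e1 := h (δ / 2)
  have e2 := h (-(δ / 2))
  have l1 := mul_le_mul_of_nonneg_left s1.1 hk.le
  have l2 := mul_le_mul_of_nonneg_left s2.1 hk.le
  have p2 : 0 < (δ / 2) ^ 2 := by positivity
  rw [e0, e1] at l1
  rw [e0, e2] at l2
  have n2 : (-(δ / 2)) ^ 2 = (δ / 2) ^ 2 := by ring
  have n3 : (-(δ / 2)) ^ 3 = -(δ / 2) ^ 3 := by ring
  rw [n2, n3] at l2
  refine ⟨by nlinarith, fun h2 => s1.2 ?_ ht.ne'⟩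
  refine mul_left_cancel₀ hk.ne' ?_
  rw [e0, e1]
  rw [h2] at l1 l2 ⊢
  nlinarith

/-- on a compact Riemann surface a real `(1,1)`-form of integral zero is `i∂∂̄`-exact -/
theorem hi_one {X : Type} [TopologicalSpace X] [ChartedSpace (Cm 1) X]
    [IsManifold 𝓘(ℂ, Cm 1) ω X] [T2Space X] [CompactSpace X] [ConnectedSpace X]
    {w x : Chart 1 X → Cm 1 → Matrix (Fin 1) (Fin 1) ℂ} (hw : IsKahler w) (hx : IsClosedForm x)
    (hH : Herm x) (h : intX (fun e z => (x e z).det.re) = 0) : Exa x := by
  refine (hi_poly hw hx hH (k := 1) (a0 := intX fun e z => (w e z).det.re) (a2 := 0) (a3 := 0)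
    one_pos fun t => ?_).2 rfl
  have h1 : Vol w x t = intX fun e z => (w e z).det.re + t * (x e z).det.re := by
    refine INT.intX_congr fun e y _ => ?_
    simp [Matrix.det_unique]
  rw [h1, INT.intX_add (INT.IsKahler.isClosedForm hw).isDensity (hx.isDensity.const_mul t),
    INT.intX_const_mul, h]
  simp

end Vale.Agent.P277Z.Int
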