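import Vale.Agent.P272.K.AMP.ABP.Mat

/-! P277, Hodge index: concavity of `log det` with its equality case. -/

open scoped ComplexOrder Matrix

noncomputable section

namespace Vale.Agent.P277Z.Int

open Vale.Agent.P272.K.C2

variable {ι : Type*} [Fintype ι] [DecidableEq ι]

/-- `log det K ≤ tr K - n`, with equality only for `K = 1` -/
theorem logdet_one {K : Matrix ι ι ℂ} (hK : K.PosDef) :
    Real.log K.det.re ≤ K.trace.re - Fintype.card ι ∧
      (Real.log K.det.re = K.trace.re - Fintype.card ι → K = 1) := by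
  have hH := hK.isHermitian
  set ev := hH.eigenvalues with hev
  have hpos : ∀ i, 0 < ev i := hK.eigenvalues_pos
  have htr : K.trace.re = ∑ i, ev i := by
    rw [hH.trace_eq_sum_eigenvalues, ← hev]
    simp
  have hdet : K.det.re = ∏ i, ev i := by
    rw [hH.det_eq_prod_eigenvalues, ← hev]
    have : (∏ i, (RCLike.ofReal (ev i) : ℂ)) = ((∏ i, ev i : ℝ) : ℂ) := by push_cast; rfl
    rw [this]
    exact Complex.ofReal_re _
  have h1 : K.trace.re - Fintype.card ι = ∑ i, (ev i - 1) := by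
    rw [htr, Finset.sum_sub_distrib]; simp
  rw [h1, hdet, Real.log_prod fun i _ => (hpos i).ne']
  have h2 : ∀ i ∈ (Finset.univ : Finset ι), Real.log (ev i) ≤ ev i - 1 := fun i _ =>
    Real.log_le_sub_one_of_pos (hpos i)
  refine ⟨Finset.sum_le_sum h2, fun h => ?_⟩
  have h3 := (Finset.sum_eq_sum_iff_of_le h2).1 h
  have h4 : ∀ i, ev i = 1 := fun i => by
    by_contra hne
    exact (Real.log_lt_sub_one_of_pos (hpos i) hne).ne (h3 i (Finset.mem_univ i))
  have h5 := hH.spectral_theorem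
  have h6 : Matrix.diagonal (RCLike.ofReal ∘ hH.eigenvalues : ι → ℂ) = 1 := by
    rw [← hev, ← Matrix.diagonal_one]
    congr 1
    funext i
    simp [h4 i]
  rw [h6] at h5
  rw [h5]
  simp

/-- `log det H - log det G ≤ tr (G⁻¹ H) - n`, with equality only for `H = G` -/
theorem logdet_le {G H : Matrix ι ι ℂ} (hG : G.PosDef) (hH : H.PosDef) :
    Real.log H.det.re - Real.log G.det.re ≤ (G⁻¹ * H).trace.re - Fintype.card ι ∧
      (Real.log H.det.re - Real.log G.det.re = (G⁻¹ * H).trace.re - Fintype.card ι → H = G) := by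
  obtain ⟨A, hA⟩ := exists_factor hG.posSemidef
  have hdet : A.det ≠ 0 := by
    intro h
    have := hG.det_pos
    rw [hA, Matrix.det_mul, h, mul_zero] at this
    exact lt_irrefl _ this
  have hAu : IsUnit A.det := isUnit_iff_ne_zero.2 hdet
  have hAi : IsUnit A⁻¹ := by
    rw [Matrix.isUnit_iff_isUnit_det]
    exact Matrix.isUnit_nonsing_inv_det _ hAu
  have hK : (A⁻¹ᴴ * H * A⁻¹).PosDef := by
    have := (Matrix.IsUnit.posDef_star_left_conjugate_iff (x := H) hAi).2 hH
    simpa [Matrix.star_eq_conjTranspose] using this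
  have h2 : (A⁻¹ᴴ * H * A⁻¹).trace = (G⁻¹ * H).trace := by
    rw [Matrix.trace_mul_comm, ← Matrix.mul_assoc, hA, Matrix.mul_inv_rev,
      Matrix.conjTranspose_nonsing_inv]
  have hdetG : G.det = (Complex.normSq A.det : ℂ) := by
    rw [hA, Matrix.det_mul, Matrix.det_conjTranspose, mul_comm, RCLike.star_def, Complex.mul_conj]
  have hns : 0 < Complex.normSq A.det := Complex.normSq_pos.2 hdet
  have h3 : (A⁻¹ᴴ * H * A⁻¹).det.re = H.det.re / G.det.re := by
    have e : (A⁻¹ᴴ * H * A⁻¹).det = ((Complex.normSq A.det)⁻¹ : ℝ) * H.det := by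
      rw [Matrix.det_mul, Matrix.det_mul, Matrix.det_conjTranspose, Matrix.det_nonsing_inv,
        Ring.inverse_eq_inv', RCLike.star_def, map_inv₀]
      have : (Complex.normSq A.det : ℂ) = A.det * (starRingEnd ℂ) A.det := (Complex.mul_conj _).symm
      push_cast
      rw [this, mul_inv]
      ring
    rw [e, Complex.re_ofReal_mul, hdetG, Complex.ofReal_re]
    field_simp
  have h4 := logdet_one hK
  have hHp : 0 < H.det.re := (Complex.lt_def.1 hH.det_pos).1
  have hGp : 0 < G.det.re := (Complex.lt_def.1 hG.det_pos).1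
  rw [h2, h3, Real.log_div hHp.ne' hGp.ne'] at h4
  refine ⟨h4.1, fun h => ?_⟩
  have h5 := h4.2 h
  have h6 : Aᴴ * (A⁻¹ᴴ * H * A⁻¹) * A = H := by
    have e1 : Aᴴ * A⁻¹ᴴ = 1 := by
      rw [← Matrix.conjTranspose_mul, Matrix.nonsing_inv_mul _ hAu, Matrix.conjTranspose_one]
    calc Aᴴ * (A⁻¹ᴴ * H * A⁻¹) * A = (Aᴴ * A⁻¹ᴴ) * H * (A⁻¹ * A) := by
          simp only [Matrix.mul_assoc]
      _ = H := by rw [e1, Matrix.nonsing_inv_mul _ hAu]; simp
  rw [← h6, h5, hA]
  simp

end Vale.Agent.P277Z.Int
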